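import Vale.Agent.P102.H787.Coef
import Vale.Agent.P102.SF.C.Spread

/-! The local static theorem along an ultrafilter of time vectors. -/

set_option linter.unusedSectionVars false

namespace Vale.Agent.P102.H787

open MeasureTheory Filter Topology Vale.Agent.P102.Ext Vale.Agent.P102.SF
open scoped ComplexConjugate

variable {X G : Type*} [MeasurableSpace X] [MeasurableSpace G]
variable {A : Type*} [AddCommGroup A] {ω : Measure G} [IsProbabilityMeasure ω] {T : X ≃ᵐ X}
  {x : G → X} (S : Static ω T x A)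
  {μ : Measure X} [IsProbabilityMeasure μ] (hT : MeasurePreserving T μ μ)
  (hx : MeasurePreserving x ω μ)

include hT hx in
theorem corr_spread (hmix : SmallDiff μ T) {ι : Type*} [Fintype ι]
    (r : Ultrafilter (ι → ℤ))
    (hr : ∀ i j, i ≠ j → Tendsto (fun t : ι → ℤ => t i - t j) r cofinite)
    (f : ι → X → ℂ) (hf : ∀ i, BM (f i)) (hs : ∀ i, S.Spanned (f i)) (l : ι)
    (h0 : ∫ y, f l y ∂μ = 0) :
    Tendsto (fun t : ι → ℤ => ∫ y, ∏ i, f i (iter T (t i) y) ∂μ) r (𝓝 0) := by
  classical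
  by_contra hcon
  rw [Metric.tendsto_nhds] at hcon
  push Not at hcon
  obtain ⟨δ, hδ, hfr⟩ := hcon
  have hev : ∀ᶠ t in (r : Filter (ι → ℤ)), δ ≤ ‖∫ y, ∏ i, f i (iter T (t i) y) ∂μ‖ := by
    filter_upwards [hfr] with t ht
    rw [dist_zero_right] at ht
    exact ht
  obtain ⟨σ, t, ht, hgap⟩ := exists_seq_of_spread r hr _ hev
  have h2 := corr_tendsto_zero S hT hx hmix (fun n j => t n (σ j)) hgap (fun j => f (σ j))
    (fun j => hf _) (fun j => hs _) (σ.symm l) (by simpa using h0)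
  rw [Metric.tendsto_atTop] at h2
  obtain ⟨N, hN⟩ := h2 δ hδ
  have h3 := hN N le_rfl
  rw [dist_zero_right] at h3
  have h4 : ∫ y, ∏ j, f (σ j) (iter T (t N (σ j)) y) ∂μ =
      ∫ y, ∏ i, f i (iter T (t N i) y) ∂μ := by
    congr 1; funext y
    exact Equiv.prod_comp σ (fun i => f i (iter T (t N i) y))
  rw [h4] at h3
  exact absurd (ht N) (not_le.2 h3)

end Vale.Agent.P102.H787
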