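import Vale.Agent.P102.RM.Assembly3
import Vale.Agent.P102.RM.BTot
import Vale.Agent.P102.RM.TheE244
import Vale.Agent.P102.H787.SpreadLoc

/-! The core of the proof without the hypothesis of mixing: along any ultrafilter of time vectors
with gaps tending to infinity, if any `k` coordinates of the limit joining are independent then
all `k + 1` are. -/

namespace Vale.Agent.P102.H787

open MeasureTheory Filter Topology ProbabilityTheory Vale.Agent.P102.RM
open scoped ComplexConjugate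

section small

variable {ι : Type} [Fintype ι] [DecidableEq ι]

/-- a mixing ultrafilter of differences -/
theorem corr_small (r : Ultrafilter (ι → ℤ)) (X : Sys) (hK : KInd r X) {i0 p q : ι}
    (hp : i0 ≠ p) (hq : i0 ≠ q) (hpq : p ≠ q) (g : X.C → ℂ) (hg : Bdd g)
    (h0 : ∫ y, g y ∂X.μ = 0) (a : ℤ) :
    Tendsto (fun t : ι → ℤ => ∫ y, g (iter X.S (t q - t p - a) y) * conj (g y) ∂X.μ) r (𝓝 0) := by
  let φ : ι → X.C → ℂ := fun i =>
    if i = p then fun x => conj (g (iter X.S a x)) else if i = q then g else fun _ => 1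
  have hga : Bdd fun x => conj (g (iter X.S a x)) := (hg.comp (measurable_iter X.S a)).star
  have hφ : ∀ i, Bdd (φ i) := by
    intro i
    simp only [φ]
    split_ifs
    · exact hga
    · exact hg
    · exact Bdd.const 1
  have hprod : ∀ z : ι → X.C, ∏ i ∈ Finset.univ.erase i0, φ i (z i) =
      conj (g (iter X.S a (z p))) * g (z q) := by
    intro z
    rw [Finset.prod_eq_mul p q hpq]
    · simp [φ, hpq.symm]
    · intro c _ hc
      simp [φ, hc.1, hc.2]
    · intro h
      exact absurd (Finset.mem_erase.2 ⟨hp.symm, Finset.mem_univ _⟩) h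
    · intro h
      exact absurd (Finset.mem_erase.2 ⟨hq.symm, Finset.mem_univ _⟩) h
  have h1 := tendsto_limM_finset r X (Finset.univ.erase i0) φ fun i _ => hφ i
  rw [hK i0 φ hφ, Finset.prod_eq_zero (Finset.mem_erase.2 ⟨hq.symm, Finset.mem_univ q⟩)
    (by simp [φ, hpq.symm, h0])] at h1
  refine h1.congr fun t => ?_
  have h2 : ∫ y, (fun x => g (iter X.S (t q - t p - a) x) * conj (g x))
      (iter X.S (a + t p) y) ∂X.μ =
      ∫ y, g (iter X.S (t q - t p - a) y) * conj (g y) ∂X.μ := by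
    have hm : Measurable fun x => g (iter X.S (t q - t p - a) x) * conj (g x) :=
      (hg.1.comp (measurable_iter X.S _)).mul (Complex.continuous_conj.measurable.comp hg.1)
    have hmp := iter_mp X.S X.mp (a + t p)
    rw [← integral_map hmp.measurable.aemeasurable hm.aestronglyMeasurable, hmp.map_eq]
  rw [← h2]
  congr 1
  funext y
  rw [hprod]
  simp only
  rw [← iter_add, ← iter_add, mul_comm]
  congr 3
  ring

theorem smallDiff_of_kInd (r : Ultrafilter (ι → ℤ)) (X : Sys) (hc : 3 ≤ Fintype.card ι)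
    (hr : RM.Spread r) (hK : KInd r X) : SmallDiff X.μ X.S := by
  obtain ⟨i0, p, q, h1, h2, h3⟩ := Fintype.two_lt_card_iff.1 hc
  -- we may assume that `t q - t p` tends to `+∞`
  have key : ∀ p q : ι, i0 ≠ p → i0 ≠ q → p ≠ q →
      Tendsto (fun t : ι → ℤ => t q - t p) r atTop → SmallDiff X.μ X.S := by
    clear h1 h2 h3 p q
    intro p q h1 h2 h3 htop g hg hg0 ε hε N hN
    have hseq := exists_seq_of_forall_finset_exists (fun n : ℕ => N ∣ n)
      (fun m n : ℕ => m < n ∧ ‖∫ y, g (iter X.S ((n - m : ℕ) : ℤ) y) * conj (g y) ∂X.μ‖ ≤ ε)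
      (by
        intro s _
        have e1 : ∀ᶠ t in (r : Filter (ι → ℤ)), ∀ c ∈ Finset.range N, ∀ m ∈ s,
            ‖∫ y, g (iter X.S (t q - t p - ((m : ℤ) - c)) y) * conj (g y) ∂X.μ‖ ≤ ε := by
          rw [Filter.eventually_all_finset]
          intro c _
          rw [Filter.eventually_all_finset]
          intro m _
          have h4 := corr_small r X hK h1 h2 h3 g hg hg0 ((m : ℤ) - c)
          rw [Metric.tendsto_nhds] at h4
          filter_upwards [h4 ε hε] with t ht
          rw [dist_zero_right] at ht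
          exact ht.le
        have e2 := htop.eventually_ge_atTop (((s.sup id : ℕ) : ℤ) + 1)
        obtain ⟨t, ht1, ht2⟩ := (e1.and e2).exists
        obtain ⟨d, hd⟩ : ∃ d : ℤ, d = t q - t p := ⟨_, rfl⟩
        rw [← hd] at ht1 ht2
        have hN' : (N : ℤ) ≠ 0 := by exact_mod_cast hN.ne'
        have hN0 : (0 : ℤ) < N := by exact_mod_cast hN
        obtain ⟨c, hc⟩ : ∃ c : ℕ, (c : ℤ) = (-d) % N :=
          ⟨((-d) % N).toNat, Int.toNat_of_nonneg (Int.emod_nonneg _ hN')⟩
        have hcN : c < N := by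
          have := Int.emod_lt_of_pos (-d) hN0
          rw [← hc] at this
          exact_mod_cast this
        obtain ⟨y, hy⟩ : ∃ y : ℕ, (y : ℤ) = d + c :=
          ⟨(d + c).toNat, Int.toNat_of_nonneg (by omega)⟩
        refine ⟨y, ?_, fun m hm => ?_⟩
        · have h5 : (N : ℤ) ∣ (y : ℤ) := by
            rw [hy, hc]
            have h6 := Int.emod_add_mul_ediv (-d) N
            refine ⟨-((-d) / N), ?_⟩
            linarith
          exact_mod_cast h5
        · have hms : m ≤ s.sup id := Finset.le_sup (f := id) hm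
          have hmy : m < y := by
            have : (m : ℤ) < y := by
              have : (m : ℤ) ≤ ((s.sup id : ℕ) : ℤ) := by exact_mod_cast hms
              omega
            exact_mod_cast this
          refine ⟨hmy, ?_⟩
          have h7 := ht1 c (Finset.mem_range.2 hcN) m hm
          have h8 : ((y - m : ℕ) : ℤ) = d - ((m : ℤ) - c) := by
            rw [Nat.cast_sub hmy.le, hy]; ring
          rw [h8]; exact h7)
    obtain ⟨τ, hτ1, hτ2⟩ := hseq
    exact ⟨τ, hτ1, fun i j hij => hτ2 i j hij⟩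
  have h4 := hr q p h3.symm
  rw [Int.cofinite_eq] at h4
  have h5 : ((r.map fun t : ι → ℤ => t q - t p : Ultrafilter ℤ) : Filter ℤ) ≤ atBot ⊔ atTop := h4
  rcases Ultrafilter.le_sup_iff.1 h5 with h6 | h6
  · refine key q p h2 h1 h3.symm ?_
    have h7 : Tendsto (fun t : ι → ℤ => t q - t p) r atBot := h6
    have h8 := tendsto_neg_atBot_atTop.comp h7
    refine h8.congr fun t => ?_
    simp
  · exact key p q h1 h2 h3 h6

end small

/-- small correlations pass to factors -/
theorem SmallDiff.factor {X Y : Sys} (p : Fac X Y) (h : SmallDiff X.μ X.S) :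
    SmallDiff Y.μ Y.S := by
  intro g hg hg0 ε hε N hN
  have hint : ∀ F : Y.C → ℂ, Measurable F → ∫ y, F (p.f y) ∂X.μ = ∫ z, F z ∂Y.μ := by
    intro F hF
    rw [← integral_map p.mp.measurable.aemeasurable hF.aestronglyMeasurable, p.mp.map_eq]
  obtain ⟨τ, h1, h2⟩ := h (fun y => g (p.f y)) (hg.comp p.mp.measurable)
    (by rw [hint g hg.1]; exact hg0) ε hε N hN
  refine ⟨τ, h1, fun i j hij => ⟨(h2 i j hij).1, ?_⟩⟩
  have h3 := (h2 i j hij).2
  have h4 : ∫ y, g (p.f (iter X.S ((τ j - τ i : ℕ) : ℤ) y)) * conj (g (p.f y)) ∂X.μ =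
      ∫ z, g (iter Y.S ((τ j - τ i : ℕ) : ℤ) z) * conj (g z) ∂Y.μ := by
    rw [← hint (fun z => g (iter Y.S ((τ j - τ i : ℕ) : ℤ) z) * conj (g z))
      ((hg.1.comp (measurable_iter Y.S _)).mul (Complex.continuous_conj.measurable.comp hg.1))]
    congr 1
    funext y
    rw [p.iter]
  have h5 : ‖∫ y, g (p.f (iter X.S ((τ j - τ i : ℕ) : ℤ) y)) * conj (g (p.f y)) ∂X.μ‖ ≤ ε := h3
  rw [h4] at h5
  exact h5

/-- block CE without mixing -/
theorem ce_loc (X : Sys) (P : Adm X) (ι : Type) [Fintype ι] [DecidableEq ι]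
    (r : Ultrafilter (ι → ℤ)) (hc : 3 ≤ Fintype.card ι) (hr : RM.Spread r) (hK : KInd r X)
    (p q : ι) (hpq : p ≠ q) (F : ExF P r p q)
    (hT : ∀ᵐ η ∂(D r P.Y).μ, Total (F.E.y.lineK r η) p q) (d : PD F) : False := by
  -- good lines
  have hgood : ∀ᵐ η ∂(D r P.Y).μ, (Total (F.E.y.lineK r η) p q ∧ KI (F.E.y.lineK r η)) ∧
      (F.E.y.lineK r (fun i => P.Y.S (η i)) =
        (F.E.y.lineK r η).map (fun v i => F.E.V.S (v i)) ∧
      MeasurePreserving F.xi.f ((F.E.y.lineK r η).map fun v : ι → F.E.V.C => v q) F.Xe.μ) :=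
    (hT.and (ae_ki F d)).and ((lineK_equiv r F.E.y).and F.lineK_xi)
  obtain ⟨η, η', ⟨⟨ht, hki⟩, heq, hxi⟩, -, -, hR, hR'⟩ :=
    exists_two_lines r hgood (ae_ae_ciso hc hpq F hT d)
  have hprob : IsProbabilityMeasure (F.E.y.lineK r η) := by
    unfold Fac.lineK; infer_instance
  have hiso : CIso p q (F.E.y.lineK r η) F.xi.f
      ((F.E.y.lineK r η).map (lmap ι F.E.V.S)) F.xi.f := by
    have h1 := hR.trans hR'.symm
    rw [heq] at h1
    exact h1
  obtain ⟨St, hSt⟩ := exists_static hc hpq hki ht F.E.V.S F.Xe.S F.xi.meas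
    (Eventually.of_forall fun v => F.xi.eqv v) hiso
  have hm : IsProbabilityMeasure (marg (F.E.y.lineK r η) q) := by
    unfold marg
    exact Measure.isProbabilityMeasure_map (measurable_pi_apply q).aemeasurable
  obtain ⟨φ, hφ, h0, hne⟩ := F.nt
  refine hne ?_
  have hlim := tendsto_limM r F.Xe φ hφ
  have hsd : SmallDiff F.Xe.μ F.Xe.S := (smallDiff_of_kInd r X hc hr hK).factor F.ax
  exact tendsto_nhds_unique hlim
    (corr_spread St F.Xe.mp hxi hsd r hr φ hφ (fun i => hSt _ (hφ i)) p (h0 p))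

/-- **The local core theorem.** -/
theorem core_loc (X : Sys) (k : ℕ) (r : Ultrafilter (Fin (k + 1) → ℤ)) (hk : 2 ≤ k)
    (hr : RM.Spread r) (hK : KInd r X) (φ : Fin (k + 1) → X.C → ℂ) (hφ : ∀ i, Bdd (φ i))
    (h0 : ∀ i, ∫ x, φ i x ∂X.μ = 0) : ∫ d, ∏ i, φ i (d i) ∂(D r X).μ = 0 := by
  have hL := RM.b_line RM.b_up
  have hTHE := RM.H244.b_the_of hL
  have hIDEAL := RM.H244.b_ideal_of hL
  by_contra hn
  have hc : 3 ≤ Fintype.card (Fin (k + 1)) := by simp; omega
  obtain ⟨P, _, hM, hN⟩ := b_SAT X (triv X) (Fin (k + 1)) r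
  have hpq : (0 : Fin (k + 1)) ≠ Fin.last k := by
    intro h
    have := congrArg Fin.val h
    simp at this
    omega
  have hne : ∫ d, ∏ i, φ i (d i) ∂(D r X).μ ≠ ∏ i, ∫ x, φ i x ∂X.μ := by
    rw [Finset.prod_eq_zero (Finset.mem_univ (0 : Fin (k + 1))) (h0 0)]
    exact hn
  obtain ⟨F⟩ := b_exf_of (b_line b_up) (b_grid b_up) hIDEAL X P (Fin (k + 1)) r hc hK hM hN 0
    (Fin.last k) hpq (b_XE_of hTHE hIDEAL X P (Fin (k + 1)) r hc hK hM hN ⟨φ, hφ, hne⟩ 0
      (Fin.last k) hpq)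
  obtain ⟨d⟩ := b_pd b_SAT (b_line b_up) X P (Fin (k + 1)) r hc hK hM 0 (Fin.last k) hpq F
  exact ce_loc X P (Fin (k + 1)) r hc hr hK 0 (Fin.last k) hpq F
    (tot_of_med RM.medThm (Fin (k + 1)) r 0 (Fin.last k) hpq hc P.Y F.E) d

end Vale.Agent.P102.H787
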