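import Vale.Agent.P102.H787.CoreLoc

/-! The local theorem for standard Borel systems and ultrafilters of time vectors. -/

namespace Vale.Agent.P102.H787

open MeasureTheory Filter Topology ProbabilityTheory Vale.Agent.P102.RM
open scoped ComplexConjugate

/-- pairwise mixing along the ultrafilter `r` of time vectors -/
def PairMix {ι : Type} (r : Ultrafilter (ι → ℤ)) (X : Sys) : Prop :=
  ∀ i j, i ≠ j → ∀ A B : Set X.C, MeasurableSet A → MeasurableSet B →
    Tendsto (fun t : ι → ℤ => X.μ.real (iter X.S (t i) ⁻¹' A ∩ iter X.S (t j) ⁻¹' B)) r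
      (𝓝 (X.μ.real A * X.μ.real B))

/-- any `k` coordinates of the limit law are independent (sets) -/
def BoxInd {k : ℕ} (r : Ultrafilter (Fin (k + 1) → ℤ)) (X : Sys) : Prop :=
  ∀ A : Fin (k + 1) → Set X.C, (∀ i, MeasurableSet (A i)) → ∀ i0, A i0 = Set.univ →
    (limM r X).real (Set.univ.pi A) = ∏ i, X.μ.real (A i)

theorem tendsto_box {ι : Type} [Fintype ι] (r : Ultrafilter (ι → ℤ)) (X : Sys)
    (A : ι → Set X.C) (hA : ∀ i, MeasurableSet (A i)) :
    Tendsto (fun t : ι → ℤ => X.μ.real (⋂ i, iter X.S (t i) ⁻¹' A i)) r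
      (𝓝 ((limM r X).real (Set.univ.pi A))) :=
  (ENNReal.tendsto_toReal (measure_ne_top _ _)).comp ((isLim_limM r X).2 A hA)

theorem kInd_of_box {k : ℕ} {r : Ultrafilter (Fin (k + 1) → ℤ)} {X : Sys} (h : BoxInd r X) :
    KInd r X := by
  intro i0 φ hφ
  have hm : Measurable fun (d : Fin (k + 1) → X.C) (j : {j : Fin (k + 1) // j ≠ i0}) => d j :=
    measurable_pi_lambda _ fun j => measurable_pi_apply _
  have hmap : (limM r X).map (fun d (j : {j : Fin (k + 1) // j ≠ i0}) => d j) =
      Measure.pi fun _ : {j : Fin (k + 1) // j ≠ i0} => X.μ := by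
    symm
    refine Measure.pi_eq fun s hs => ?_
    rw [Measure.map_apply hm (MeasurableSet.univ_pi hs)]
    obtain ⟨A, hAdef⟩ : ∃ A : Fin (k + 1) → Set X.C, A = fun i => if h : i ≠ i0 then s ⟨i, h⟩
        else Set.univ := ⟨_, rfl⟩
    have hA : ∀ i, MeasurableSet (A i) := by
      intro i; rw [hAdef]; dsimp only; split_ifs
      · exact hs _
      · exact MeasurableSet.univ
    have hA0 : A i0 = Set.univ := by rw [hAdef]; simp
    have hAj : ∀ j : {j : Fin (k + 1) // j ≠ i0}, A j = s j := by
      intro j; rw [hAdef]; dsimp only; rw [dif_pos j.2]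
    have e1 : (fun (d : Fin (k + 1) → X.C) (j : {j : Fin (k + 1) // j ≠ i0}) => d j) ⁻¹'
        (Set.univ.pi s) = Set.univ.pi A := by
      ext d
      simp only [Set.mem_preimage, Set.mem_pi, Set.mem_univ, true_implies]
      constructor
      · intro h i
        by_cases hi : i = i0
        · rw [hi, hA0]; exact Set.mem_univ _
        · have := h ⟨i, hi⟩
          rw [← hAj] at this
          exact this
      · intro h j
        rw [← hAj]; exact h j
    rw [e1]
    have h2 := h A hA i0 hA0
    have h3 : ∏ i, X.μ.real (A i) = ∏ j : {j : Fin (k + 1) // j ≠ i0}, X.μ.real (s j) := by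
      rw [Fintype.prod_eq_mul_prod_subtype_ne (fun i => X.μ.real (A i)) i0, hA0, probReal_univ,
        one_mul]
      exact Finset.prod_congr rfl fun j _ => by rw [hAj]
    rw [h3] at h2
    rw [← ENNReal.ofReal_toReal (measure_ne_top (limM r X) (Set.univ.pi A)), ← measureReal_def, h2,
      ENNReal.ofReal_prod_of_nonneg fun j _ => measureReal_nonneg]
    refine Finset.prod_congr rfl fun j _ => ?_
    rw [measureReal_def, ENNReal.ofReal_toReal (measure_ne_top _ _)]
  have e1 : ∀ F : Fin (k + 1) → ℂ, ∏ i ∈ Finset.univ.erase i0, F i =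
      ∏ j : {j : Fin (k + 1) // j ≠ i0}, F j := by
    intro F
    rw [← Finset.prod_subtype (Finset.univ.erase i0) (p := fun j => j ≠ i0)
      (by intro x; simp) F]
  simp only [e1]
  have h2 : ∫ d, ∏ j : {j : Fin (k + 1) // j ≠ i0}, φ j (d j) ∂(limM r X) =
      ∫ v, ∏ j : {j : Fin (k + 1) // j ≠ i0}, φ j (v j)
        ∂((limM r X).map
          (fun d (j : {j : Fin (k + 1) // j ≠ i0}) => d j)) := by
    rw [integral_map hm.aemeasurable]
    have hm2 : Measurable fun v : {j : Fin (k + 1) // j ≠ i0} → X.C =>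
        ∏ j : {j : Fin (k + 1) // j ≠ i0}, φ j (v j) :=
      Finset.measurable_prod _ fun j _ => (hφ j).1.comp (measurable_pi_apply j)
    exact hm2.aestronglyMeasurable
  change ∫ d, ∏ j : {j : Fin (k + 1) // j ≠ i0}, φ j (d j) ∂(limM r X) = _
  rw [h2, hmap]
  exact integral_fintype_prod_eq_prod (𝕜 := ℂ) (fun j : {j : Fin (k + 1) // j ≠ i0} => φ j)

theorem lim_value_of_box {k : ℕ} {r : Ultrafilter (Fin (k + 1) → ℤ)} {X : Sys} (h : BoxInd r X)
    (A : Fin (k + 1) → Set X.C) (hA : ∀ i, MeasurableSet (A i)) :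
    ∫ d, ∏ i, cind X.μ (A i) (d i) ∂(limM r X) =
      (limM r X).real (Set.univ.pi A) - ∏ i, X.μ.real (A i) := by
  rw [lim_expand (limM r X) A hA]
  have hterm : ∀ s ∈ (Finset.univ : Finset (Finset (Fin (k + 1)))).erase Finset.univ,
      (∏ i ∈ sᶜ, (-X.μ.real (A i))) *
        (limM r X).real (Set.univ.pi fun i => if i ∈ s then A i else Set.univ) =
      (∏ i ∈ sᶜ, (-X.μ.real (A i))) * ∏ i ∈ s, X.μ.real (A i) := by
    intro s hs
    have hs' : s ≠ Finset.univ := Finset.ne_of_mem_erase hs
    obtain ⟨i0, hi0⟩ : ∃ i0, i0 ∉ s := by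
      by_contra hcon
      push Not at hcon
      exact hs' (Finset.eq_univ_iff_forall.2 hcon)
    rw [h (fun i => if i ∈ s then A i else Set.univ) (fun i => by
        split_ifs
        · exact hA i
        · exact MeasurableSet.univ) i0 (by simp [hi0])]
    congr 1
    rw [← Finset.prod_subset (Finset.subset_univ s)]
    · refine Finset.prod_congr rfl fun i hi => ?_
      rw [if_pos hi]
    · intro i _ hi
      rw [if_neg hi, probReal_univ]
  have hsum : ∑ s ∈ (Finset.univ : Finset (Finset (Fin (k + 1)))).erase Finset.univ,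
        (∏ i ∈ sᶜ, (-X.μ.real (A i))) * ∏ i ∈ s, X.μ.real (A i) = - ∏ i, X.μ.real (A i) := by
    have h4 : ∑ s : Finset (Fin (k + 1)), (∏ i ∈ sᶜ, (-X.μ.real (A i))) *
        ∏ i ∈ s, X.μ.real (A i) = 0 := by
      have h5 := Finset.prod_add (fun i => X.μ.real (A i)) (fun i => -X.μ.real (A i))
        (Finset.univ : Finset (Fin (k + 1)))
      simp only [add_neg_cancel, Finset.powerset_univ] at h5
      have h6 : ∏ _i : Fin (k + 1), (0:ℝ) = 0 := by
        rw [Finset.prod_const, Finset.card_univ, Fintype.card_fin]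
        exact zero_pow (Nat.succ_ne_zero k)
      rw [← h6, h5]
      refine Finset.sum_congr rfl fun s _ => ?_
      rw [mul_comm]
      rfl
    rw [← Finset.add_sum_erase _ _ (Finset.mem_univ (Finset.univ : Finset (Fin (k + 1))))] at h4
    simp only [Finset.compl_univ, Finset.prod_empty, one_mul] at h4
    linarith
  rw [← Finset.add_sum_erase _ _ (Finset.mem_univ (Finset.univ : Finset (Fin (k + 1)))),
    Finset.sum_congr rfl hterm, hsum]
  simp only [Finset.compl_univ, Finset.prod_empty, one_mul, Finset.mem_univ, if_true]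
  ring

/-- one constant difference makes the system trivial -/
theorem trivial_of_const {ι : Type} (r : Ultrafilter (ι → ℤ)) (X : Sys) (hr : PairMix r X)
    {i j : ι} (hij : i ≠ j) {c : ℤ} (hc : ∀ᶠ t in (r : Filter (ι → ℤ)), t i - t j = c)
    (B : Set X.C) (hB : MeasurableSet B) : X.μ.real B = 0 ∨ X.μ.real B = 1 := by
  have hmp : ∀ n : ℤ, X.μ.real (iter X.S n ⁻¹' B) = X.μ.real B := fun n => by
    rw [measureReal_def, (iter_mp X.S X.mp n).measure_preimage hB.nullMeasurableSet,
      measureReal_def]
  have h1 := hr i j hij (iter X.S (-c) ⁻¹' B) B (measurable_iter X.S _ hB) hB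
  rw [hmp] at h1
  have h2 : Tendsto (fun t : ι → ℤ => X.μ.real (iter X.S (t i) ⁻¹' (iter X.S (-c) ⁻¹' B) ∩
      iter X.S (t j) ⁻¹' B)) r (𝓝 (X.μ.real B)) := by
    refine tendsto_const_nhds.congr' ?_
    filter_upwards [hc] with t ht
    have e : iter X.S (t i) ⁻¹' (iter X.S (-c) ⁻¹' B) = iter X.S (t j) ⁻¹' B := by
      ext x
      simp only [Set.mem_preimage]
      rw [← iter_add]
      have : -c + t i = t j := by omega
      rw [this]
    rw [e, Set.inter_self, hmp]
  have h3 := tendsto_nhds_unique h1 h2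
  have h4 : X.μ.real B * (X.μ.real B - 1) = 0 := by linarith
  rcases mul_eq_zero.1 h4 with h | h
  · exact Or.inl h
  · right; linarith

theorem inter_of_trivial {ι : Type} [Fintype ι] (X : Sys)
    (h : ∀ B : Set X.C, MeasurableSet B → X.μ.real B = 0 ∨ X.μ.real B = 1) (t : ι → ℤ)
    (A : ι → Set X.C) (hA : ∀ i, MeasurableSet (A i)) :
    X.μ.real (⋂ i, iter X.S (t i) ⁻¹' A i) = ∏ i, X.μ.real (A i) := by
  have hmp : ∀ i, X.μ.real (iter X.S (t i) ⁻¹' A i) = X.μ.real (A i) := fun i => by
    rw [measureReal_def, (iter_mp X.S X.mp (t i)).measure_preimage (hA i).nullMeasurableSet,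
      measureReal_def]
  by_cases hz : ∃ i, X.μ.real (A i) = 0
  · obtain ⟨i, hi⟩ := hz
    rw [Finset.prod_eq_zero (Finset.mem_univ i) hi]
    refine le_antisymm ?_ measureReal_nonneg
    have h1 := measureReal_mono (μ := X.μ) (Set.iInter_subset (fun i => iter X.S (t i) ⁻¹' A i) i)
    rw [hmp, hi] at h1
    exact h1
  · push Not at hz
    have h1 : ∀ i, X.μ.real (A i) = 1 := fun i => (h _ (hA i)).resolve_left (hz i)
    rw [Finset.prod_eq_one fun i _ => h1 i]
    have h2 : ∀ i, ∀ᵐ x ∂X.μ, x ∈ iter X.S (t i) ⁻¹' A i := by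
      intro i
      have h3 : X.μ.real (iter X.S (t i) ⁻¹' A i) = 1 := by rw [hmp, h1]
      rw [measureReal_def] at h3
      have h4 := (ENNReal.toReal_eq_one_iff _).1 h3
      exact (mem_ae_iff_prob_eq_one (measurable_iter X.S (t i) (hA i))).2 h4
    have h3 : ∀ᵐ x ∂X.μ, x ∈ ⋂ i, iter X.S (t i) ⁻¹' A i := by
      filter_upwards [ae_all_iff.2 h2] with x hx
      exact Set.mem_iInter.2 hx
    have hm : MeasurableSet (⋂ i, iter X.S (t i) ⁻¹' A i) :=
      MeasurableSet.iInter fun i => measurable_iter X.S (t i) (hA i)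
    have h4 := (mem_ae_iff_prob_eq_one hm).1 h3
    rw [measureReal_def, h4]
    rfl

/-- **The local theorem for standard Borel systems.** -/
theorem loc_std (k : ℕ) : ∀ (X : Sys) (r : Ultrafilter (Fin k → ℤ)), PairMix r X →
    ∀ A : Fin k → Set X.C, (∀ i, MeasurableSet (A i)) →
    Tendsto (fun t : Fin k → ℤ => X.μ.real (⋂ i, iter X.S (t i) ⁻¹' A i)) r
      (𝓝 (∏ i, X.μ.real (A i))) := by
  induction k with
  | zero =>
    intro X r _ A _
    simp
  | succ k ih =>
    intro X r hr A hA
    rcases Nat.lt_or_ge k 2 with hk | hk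
    · interval_cases k
      · have h1 : (fun t : Fin (0 + 1) → ℤ => X.μ.real (⋂ i, iter X.S (t i) ⁻¹' A i)) =
            fun _ => ∏ i, X.μ.real (A i) := by
          funext t
          have e : (⋂ i, iter X.S (t i) ⁻¹' A i) = iter X.S (t 0) ⁻¹' A 0 := by
            ext x
            simp [Fin.forall_fin_one]
          rw [e, measureReal_def, (iter_mp X.S X.mp (t 0)).measure_preimage
            (hA 0).nullMeasurableSet]
          simp [measureReal_def]
        rw [h1]
        exact tendsto_const_nhds
      · have h1 := hr 0 1 (by decide) (A 0) (A 1) (hA 0) (hA 1)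
        rw [Fin.prod_univ_two]
        refine h1.congr fun t => ?_
        congr 1
        ext x
        simp only [Set.mem_inter_iff, Set.mem_preimage, Set.mem_iInter]
        refine ⟨fun h i => ?_, fun h => ⟨h 0, h 1⟩⟩
        fin_cases i
        · exact h.1
        · exact h.2
    · -- any `k` coordinates are independent
      have hbox : BoxInd r X := by
        intro B hB i0 h0
        have h1 := ih X (r.map fun t j => t (i0.succAbove j)) (by
          intro i j hij C D hC hD
          have h2 := hr (i0.succAbove i) (i0.succAbove j)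
            (fun h => hij (Fin.succAbove_right_injective h)) C D hC hD
          rw [Ultrafilter.coe_map, tendsto_map'_iff]
          exact h2) (fun j => B (i0.succAbove j)) fun j => hB _
        rw [Ultrafilter.coe_map, tendsto_map'_iff] at h1
        have h3 := tendsto_box r X B hB
        refine tendsto_nhds_unique h3 ?_
        rw [Fin.prod_univ_succAbove _ i0, h0, probReal_univ, one_mul]
        refine h1.congr fun t => ?_
        simp only [Function.comp_apply]
        congr 1
        ext x
        simp only [Set.mem_iInter, Set.mem_preimage]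
        constructor
        · intro hx i
          rcases Fin.eq_self_or_eq_succAbove i0 i with rfl | ⟨j, rfl⟩
          · rw [h0]; exact Set.mem_univ _
          · exact hx j
        · intro hx i
          exact hx _
      by_cases hs : RM.Spread r
      · have hK := kInd_of_box hbox
        have h1 := core_loc X k r hk hs hK (fun i x => ((cind X.μ (A i) x : ℝ) : ℂ))
          (fun i => ⟨Complex.measurable_ofReal.comp (measurable_cind (hA i)), 1, fun x => by
            rw [Complex.norm_real]
            exact abs_cind_le _ _⟩)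
          (fun i => by
            rw [integral_complex_ofReal, integral_cind (hA i), Complex.ofReal_zero])
        have e1 : ∀ d : Fin (k + 1) → X.C, ∏ i, ((cind X.μ (A i) (d i) : ℝ) : ℂ) =
            ((∏ i, cind X.μ (A i) (d i) : ℝ) : ℂ) := fun d => by push_cast; rfl
        simp only [e1] at h1
        change ∫ d, ((∏ i, cind X.μ (A i) (d i) : ℝ) : ℂ) ∂(limM r X) = 0 at h1
        rw [integral_complex_ofReal, lim_value_of_box hbox A hA, Complex.ofReal_eq_zero] at h1
        have h2 := tendsto_box r X A hA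
        rw [show (limM r X).real (Set.univ.pi A) = ∏ i, X.μ.real (A i) by linarith] at h2
        exact h2
      · unfold RM.Spread at hs
        push Not at hs
        obtain ⟨i, j, hij, hc⟩ := hs
        have hc' : ∃ c : ℤ, ∀ᶠ t in (r : Filter (Fin (k + 1) → ℤ)), t i - t j = c := by
          by_contra hcon
          push Not at hcon
          apply hc
          refine le_cofinite_iff_eventually_ne.2 fun c => ?_
          rw [eventually_map]
          exact hcon c
        obtain ⟨c, hc'⟩ := hc'
        have h1 := trivial_of_const r X hr hij hc'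
        have h2 : (fun t : Fin (k + 1) → ℤ => X.μ.real (⋂ i, iter X.S (t i) ⁻¹' A i)) =
            fun _ => ∏ i, X.μ.real (A i) := funext fun t => inter_of_trivial X h1 t A hA
        rw [h2]
        exact tendsto_const_nhds

end Vale.Agent.P102.H787
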