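import Vale.Agent.P102.H787.LocStd

/-!
# The local form of Rokhlin's theorem

`local_rokhlin`: for every invertible measure preserving transformation (no mixing is assumed),
pairwise mixing along a filter of time vectors implies mixing of order `k` along it.

`local_rokhlin_finitary`: for all sets `A i` and `ε > 0` there are finitely many sets and `δ > 0`
such that for every time vector `t`, if these sets are pairwise `δ`-independent at the times `t`
then the sets `A i` are `ε`-independent at the times `t`.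
-/

namespace Vale.Agent.P102.H787

open MeasureTheory Filter Topology ProbabilityTheory Vale.Agent.P102.RM

section

variable {Ω : Type*} [MeasurableSpace Ω]

/-- **Local Rokhlin theorem.** -/
theorem local_rokhlin (μ : Measure Ω) [IsProbabilityMeasure μ] (T : Ω ≃ᵐ Ω)
    (hT : MeasurePreserving T μ μ) {k : ℕ} (l : Filter (Fin k → ℤ))
    (h : ∀ i j : Fin k, i ≠ j → ∀ A B : Set Ω, MeasurableSet A → MeasurableSet B →
      Tendsto (fun t : Fin k → ℤ => μ.real (it T (t i) ⁻¹' A ∩ it T (t j) ⁻¹' B)) l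
        (𝓝 (μ.real A * μ.real B)))
    (A : Fin k → Set Ω) (hA : ∀ i, MeasurableSet (A i)) :
    Tendsto (fun t : Fin k → ℤ => μ.real (⋂ i, it T (t i) ⁻¹' A i)) l
      (𝓝 (∏ i, μ.real (A i))) := by
  rw [tendsto_iff_ultrafilter]
  intro r hr
  have hφ := measurable_coding T A hA
  have hc : ∀ x, coding T A (T x) = shiftEquiv (Fin k → Bool) (coding T A x) :=
    coding_shift T A
  have hP : IsProbabilityMeasure (μ.map (coding T A)) :=
    Measure.isProbabilityMeasure_map hφ.aemeasurable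
  let X : Sys :=
    { C := ℤ → (Fin k → Bool)
      μ := μ.map (coding T A)
      S := shiftEquiv (Fin k → Bool)
      mp := mp_map _ hφ hc hT }
  have hreal : ∀ B : Set (ℤ → (Fin k → Bool)), MeasurableSet B →
      X.μ.real B = μ.real (coding T A ⁻¹' B) := by
    intro B hB
    show (μ.map (coding T A)).real B = _
    rw [measureReal_def, Measure.map_apply hφ hB, measureReal_def]
  have hpre : ∀ (n : ℤ) (B : Set (ℤ → (Fin k → Bool))),
      coding T A ⁻¹' (iter X.S n ⁻¹' B) = it T n ⁻¹' (coding T A ⁻¹' B) := by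
    intro n B
    ext x
    simp only [Set.mem_preimage]
    have := it_semiconj T (shiftEquiv (Fin k → Bool)) (coding T A) hc n x
    rw [this]
    rfl
  have hpm : PairMix r X := by
    intro i j hij B C hB hC
    have h1 := (h i j hij (coding T A ⁻¹' B) (coding T A ⁻¹' C) (hφ hB) (hφ hC)).mono_left hr
    rw [← hreal B hB, ← hreal C hC] at h1
    refine h1.congr fun t => ?_
    rw [hreal _ ((measurable_iter X.S _ hB).inter (measurable_iter X.S _ hC)), Set.preimage_inter,
      hpre, hpre]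
  have h2 := loc_std k X r hpm (cyl k) (measurableSet_cyl k)
  have e2 : ∀ i, X.μ.real (cyl k i) = μ.real (A i) := by
    intro i
    rw [hreal _ (measurableSet_cyl _ i), coding_preimage_cyl]
  simp only [e2] at h2
  refine h2.congr fun t => ?_
  rw [hreal _ (MeasurableSet.iInter fun i => measurable_iter X.S (t i) (measurableSet_cyl k i)),
    Set.preimage_iInter]
  simp only [hpre, coding_preimage_cyl]

/-- **Local Rokhlin theorem**, finitary form. -/
theorem local_rokhlin_finitary (μ : Measure Ω) [IsProbabilityMeasure μ] (T : Ω ≃ᵐ Ω)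
    (hT : MeasurePreserving T μ μ) {k : ℕ} (A : Fin k → Set Ω) (hA : ∀ i, MeasurableSet (A i))
    (ε : ℝ) (hε : 0 < ε) :
    ∃ F : Finset (Set Ω), (∀ B ∈ F, MeasurableSet B) ∧ ∃ δ : ℝ, 0 < δ ∧ ∀ t : Fin k → ℤ,
      (∀ i j : Fin k, i ≠ j → ∀ B ∈ F, ∀ C ∈ F,
        |μ.real (it T (t i) ⁻¹' B ∩ it T (t j) ⁻¹' C) - μ.real B * μ.real C| < δ) →
      |μ.real (⋂ i, it T (t i) ⁻¹' A i) - ∏ i, μ.real (A i)| < ε := by
  classical
  by_contra hcon
  have hex : ∀ p : Finset {B : Set Ω // MeasurableSet B} × ℕ, ∃ t : Fin k → ℤ,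
      (∀ i j : Fin k, i ≠ j → ∀ B ∈ p.1, ∀ C ∈ p.1,
        |μ.real (it T (t i) ⁻¹' B.1 ∩ it T (t j) ⁻¹' C.1) - μ.real B.1 * μ.real C.1| <
          1 / ((p.2 : ℝ) + 1)) ∧
      ε ≤ |μ.real (⋂ i, it T (t i) ⁻¹' A i) - ∏ i, μ.real (A i)| := by
    intro p
    by_contra hp
    apply hcon
    refine ⟨p.1.image Subtype.val, ?_, 1 / ((p.2 : ℝ) + 1), by positivity, fun t ht => ?_⟩
    · intro B hB
      obtain ⟨C, -, rfl⟩ := Finset.mem_image.1 hB
      exact C.2
    · by_contra hlt
      exact hp ⟨t, fun i j hij B hB C hC => ht i j hij _ (Finset.mem_image_of_mem _ hB) _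
        (Finset.mem_image_of_mem _ hC), not_lt.1 hlt⟩
  choose t ht1 ht2 using hex
  have h1 := local_rokhlin μ T hT (l := map t atTop) (by
    intro i j hij B C hB hC
    rw [tendsto_map'_iff, Metric.tendsto_nhds]
    intro δ hδ
    obtain ⟨n, hn⟩ := exists_nat_one_div_lt hδ
    filter_upwards [eventually_ge_atTop
      (({⟨B, hB⟩, ⟨C, hC⟩}, n) : Finset {B : Set Ω // MeasurableSet B} × ℕ)] with p hp
    rw [Real.dist_eq]
    have hp1 : ({⟨B, hB⟩, ⟨C, hC⟩} : Finset {B : Set Ω // MeasurableSet B}) ⊆ p.1 := hp.1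
    have hp2 : n ≤ p.2 := hp.2
    have h2 := ht1 p i j hij ⟨B, hB⟩ (hp1 (by simp)) ⟨C, hC⟩ (hp1 (by simp))
    have h3 : (1 : ℝ) / ((p.2 : ℝ) + 1) ≤ 1 / ((n : ℝ) + 1) := by
      apply one_div_le_one_div_of_le (by positivity)
      have : (n : ℝ) ≤ p.2 := by exact_mod_cast hp2
      linarith
    exact h2.trans (h3.trans_lt hn)) A hA
  rw [tendsto_map'_iff, Metric.tendsto_nhds] at h1
  obtain ⟨p, hp⟩ := (h1 ε hε).exists
  rw [Real.dist_eq] at hp
  exact absurd (ht2 p) (not_le.2 hp)

end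

end Vale.Agent.P102.H787
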